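import Vale.Agent.P040.Plane
import Vale.Agent.P040.PairAngle
import Vale.Agent.P040.Normalise
import Vale.Agent.P040.Cert.Bridge

/-!
For all sufficiently large `m`, `n`, every drawing of `K_{m,n}` has at least `0.92 d_m d_n` crossings,
where `d_r = ⌊r/2⌋⌊(r-1)/2⌋`.
-/

open Set

namespace Vale.Agent.Results.P040.ZarankiewiczRatio

open Vale.Agent.P040

/-- `cr(K_{m,n}) ≥ 0.92 d_m d_n` for all sufficiently large `m` and `n`. -/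
theorem result :
    ∃ N : ℕ, ∀ m n : ℕ, N ≤ m → N ≤ n →
      ∀ (P : Fin m ⊕ Fin n → ℂ) (γ : Fin m → Fin n → ℝ → ℂ), Function.Injective P →
        (∀ i j, ContinuousOn (γ i j) (Icc 0 1) ∧ InjOn (γ i j) (Icc 0 1) ∧
          γ i j 0 = P (Sum.inl i) ∧ γ i j 1 = P (Sum.inr j) ∧
          ∀ t ∈ Ioo (0:ℝ) 1, γ i j t ∉ range P) →
        {z : ℂ | ∃ e e' : Fin m × Fin n, e ≠ e' ∧ z ∈ γ e.1 e.2 '' Ioo 0 1 ∧
          z ∈ γ e'.1 e'.2 '' Ioo 0 1}.Finite →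
        (∀ z : ℂ, {e : Fin m × Fin n | z ∈ γ e.1 e.2 '' Ioo 0 1}.ncard ≤ 2) →
        (23/25 : ℝ) * (((m / 2) * ((m - 1) / 2) * ((n / 2) * ((n - 1) / 2)) : ℕ) : ℝ)
          ≤ ({z : ℂ | ∃ e e' : Fin m × Fin n, e ≠ e' ∧ z ∈ γ e.1 e.2 '' Ioo 0 1 ∧
              z ∈ γ e'.1 e'.2 '' Ioo 0 1}.ncard : ℝ) := by
  obtain ⟨c, hc, hB⟩ := Cert.bound_of_cert normalise (pairBound_of_pairAngle pairAngle)
  exact plane_of_bound (by norm_num) hc hB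

end Vale.Agent.Results.P040.ZarankiewiczRatio
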